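import Mathlib

set_option autoImplicit false

/-!
# P181, TR: the trace trick, abstract core

`W` a space of elements of a domain `A`, `φ e` finitely many algebra maps with `φ e0 = id`, and
`∑ i, a i * φ e (u i) = 0` for `e ≠ e0`, `∑ i, a i * u i ≠ 0`. If all `∑ e, φ e (F * u i)` are in
`P`, then `dim W ≤ card E * dim P`.
-/

open Finset

namespace Vale.Agent.P181.TR.H88

theorem core {A : Type*} [CommRing A] [IsDomain A] [Algebra ℂ A] {E I : Type*} [Fintype E]
    [Fintype I] (φ : E → A →ₐ[ℂ] A) (e0 : E) (h0 : φ e0 = AlgHom.id ℂ A)
    (W P : Submodule ℂ A) [FiniteDimensional ℂ P] (u a : I → A)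
    (hz : ∀ e, e ≠ e0 → ∑ i, a i * φ e (u i) = 0) (hn : ∑ i, a i * u i ≠ 0)
    (hP : ∀ F ∈ W, ∀ i, ∑ e, φ e (F * u i) ∈ P) :
    Module.finrank ℂ W ≤ Fintype.card E * Module.finrank ℂ P := by
  classical
  let v : I → E → FractionRing A := fun i e => algebraMap A (FractionRing A) (φ e (u i))
  obtain ⟨κ, r, hr, hspan, hli⟩ := exists_linearIndependent' (FractionRing A) v
  have : Finite κ := Finite.of_injective r hr
  let _ := Fintype.ofFinite κ
  have hcard : Fintype.card κ ≤ Fintype.card E := by
    have h := hli.fintype_card_le_finrank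
    rwa [Module.finrank_fintype_fun_eq_card] at h
  have hmem : ∑ i, algebraMap A (FractionRing A) (a i) • v i ∈
      Submodule.span (FractionRing A) (Set.range (v ∘ r)) := by
    rw [hspan]
    exact Submodule.sum_mem _ fun i _ => Submodule.smul_mem _ _ (Submodule.subset_span ⟨i, rfl⟩)
  obtain ⟨c, hc⟩ := (Submodule.mem_span_range_iff_exists_fun (FractionRing A)).1 hmem
  have hc' : ∀ e, ∑ x, c x * algebraMap A (FractionRing A) (φ e (u (r x))) =
      ∑ i, algebraMap A (FractionRing A) (a i) * algebraMap A (FractionRing A) (φ e (u i)) := by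
    intro e
    have h := congrFun hc e
    simpa only [v, Finset.sum_apply, Pi.smul_apply, smul_eq_mul, Function.comp_apply] using h
  let S : κ → A →ₗ[ℂ] A := fun x =>
    ∑ e, (φ e).toLinearMap ∘ₗ LinearMap.mulRight ℂ (u (r x))
  have hS : ∀ x F, S x F = ∑ e, φ e (F * u (r x)) := by
    intro x F
    simp [S, LinearMap.sum_apply]
  let T : W →ₗ[ℂ] (κ → P) := LinearMap.pi fun x =>
    LinearMap.codRestrict P (S x ∘ₗ W.subtype) fun F => by
      rw [LinearMap.comp_apply, hS]
      exact hP _ F.2 _
  have hT : Function.Injective T := by
    rw [injective_iff_map_eq_zero]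
    intro F hF
    have h1 : ∀ x, ∑ e, φ e ((F : A) * u (r x)) = 0 := by
      intro x
      have h := congrArg (fun y : κ → P => ((y x : P) : A)) hF
      simp only [T, LinearMap.pi_apply, LinearMap.codRestrict_apply, LinearMap.comp_apply,
        Submodule.subtype_apply, Pi.zero_apply, ZeroMemClass.coe_zero] at h
      rw [hS] at h
      exact h
    have h2 : algebraMap A (FractionRing A) ((F : A) * ∑ i, a i * u i) = 0 := by
      have h3 : algebraMap A (FractionRing A) ((F : A) * ∑ i, a i * u i) =
          ∑ e, algebraMap A (FractionRing A) (φ e (F : A)) *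
            ∑ i, algebraMap A (FractionRing A) (a i) *
              algebraMap A (FractionRing A) (φ e (u i)) := by
        rw [Finset.sum_eq_single e0]
        · rw [h0, map_mul, map_sum]
          simp only [AlgHom.coe_id, id_eq, map_mul]
        · intro e _ he
          rw [← Finset.sum_congr rfl fun i _ => map_mul (algebraMap A (FractionRing A)) _ _,
            ← map_sum, hz e he, map_zero, mul_zero]
        · intro h
          exact absurd (Finset.mem_univ _) h
      rw [h3]
      calc ∑ e, algebraMap A (FractionRing A) (φ e (F : A)) *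
            ∑ i, algebraMap A (FractionRing A) (a i) *
              algebraMap A (FractionRing A) (φ e (u i))
          = ∑ e, ∑ x, c x * algebraMap A (FractionRing A) (φ e ((F : A) * u (r x))) := by
            refine Finset.sum_congr rfl fun e _ => ?_
            rw [← hc', Finset.mul_sum]
            refine Finset.sum_congr rfl fun x _ => ?_
            rw [map_mul (φ e), map_mul]
            ring
        _ = ∑ x, c x * algebraMap A (FractionRing A) (∑ e, φ e ((F : A) * u (r x))) := by
            rw [Finset.sum_comm]
            refine Finset.sum_congr rfl fun x _ => ?_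
            rw [map_sum, Finset.mul_sum]
        _ = 0 := by
            refine Finset.sum_eq_zero fun x _ => ?_
            rw [h1, map_zero, mul_zero]
    have h4 : (F : A) * ∑ i, a i * u i = 0 :=
      (IsFractionRing.injective A (FractionRing A)) (by rw [h2, map_zero])
    have h5 : (F : A) = 0 := by
      rcases mul_eq_zero.1 h4 with h | h
      · exact h
      · exact absurd h hn
    exact Subtype.ext h5
  calc Module.finrank ℂ W ≤ Module.finrank ℂ (κ → P) :=
        LinearMap.finrank_le_finrank_of_injective hT
    _ = Fintype.card κ * Module.finrank ℂ P := by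
        rw [Module.finrank_pi_fintype, Finset.sum_const, Finset.card_univ, smul_eq_mul]
    _ ≤ _ := Nat.mul_le_mul_right _ hcard

end Vale.Agent.P181.TR.H88
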