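import Vale.Agent.P181.TR.H88.Core
import Vale.Agent.P181.SZR5b.Mark
import Vale.Agent.P181.TL.Defs

set_option autoImplicit false

/-!
# P181, TR: the trace trick for highest weight polynomials

`KK k'` (no symmetry) is at most `card G` times `PK (k' + c)`, `G` the permutations of the letters
preserving `k' + c`, if a family `u` of highest weight polynomials of column degrees `c` separates
the elements of `G` from `1`.
-/

open MvPolynomial

namespace Vale.Agent.P181.TR.H88

open Vale.Agent.P181.T4 (HW)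
open Vale.Agent.P181.SZ (PK)
open Vale.Agent.P181.SZR5b (rc col_iff HW_mul HW_rename col_rename)
open Vale.Agent.P181.TL (KK)

section
variable {m : ℕ} {σ : Type} [Fintype σ]

lemma kk_mul {c c' : σ → ℕ} {mu mu' : Fin m → ℕ} {f g : MvPolynomial (Fin m × σ) ℂ}
    (hf : f ∈ KK m σ c mu) (hg : g ∈ KK m σ c' mu') : f * g ∈ KK m σ (c + c') (mu + mu') := by
  classical
  refine ⟨HW_mul hf.1 hg.1, ?_⟩
  exact (col_iff (d := c + c')).2 (((col_iff (d := c)).1 hf.2).mul ((col_iff (d := c')).1 hg.2))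

lemma kk_rename {c : σ → ℕ} {mu : Fin m → ℕ} {f : MvPolynomial (Fin m × σ) ℂ}
    (hf : f ∈ KK m σ c mu) (e : Equiv.Perm σ) (he : ∀ j, c (e j) = c j) :
    rename (rc m e) f ∈ KK m σ c mu :=
  ⟨HW_rename e hf.1, col_rename e.injective he
    (fun j hj => absurd (e.surjective.range_eq ▸ Set.mem_univ j) hj) hf.2⟩

/-- The trace of a highest weight polynomial is invariant. -/
lemma trace_mem [DecidableEq σ] {k : σ → ℕ} {mu : Fin m → ℕ} {f : MvPolynomial (Fin m × σ) ℂ}
    (hf : f ∈ KK m σ k mu) :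
    ∑ e : {e : Equiv.Perm σ // ∀ j, k (e j) = k j}, rename (rc m e.1) f ∈ PK m σ k mu := by
  have h0 : ∑ e : {e : Equiv.Perm σ // ∀ j, k (e j) = k j}, rename (rc m e.1) f ∈
      KK m σ k mu := Submodule.sum_mem _ fun e _ => kk_rename hf e.1 e.2
  refine ⟨h0.1, h0.2, fun g hg => ?_⟩
  rw [map_sum]
  have h1 : ∀ e : {e : Equiv.Perm σ // ∀ j, k (e j) = k j},
      rename (fun p : Fin m × σ => (p.1, g p.2)) (rename (rc m e.1) f) =
        rename (rc m (g * e.1)) f := by
    intro e
    rw [rename_rename]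
    rfl
  rw [Finset.sum_congr rfl fun e _ => h1 e]
  refine Fintype.sum_bijective
    (fun e : {e : Equiv.Perm σ // ∀ j, k (e j) = k j} =>
      (⟨g * e.1, fun j => by rw [Equiv.Perm.mul_apply, hg, e.2]⟩ :
        {e : Equiv.Perm σ // ∀ j, k (e j) = k j})) ?_ _ _ fun e => rfl
  constructor
  · intro e e' h
    have h' := congrArg Subtype.val h
    exact Subtype.ext (mul_left_cancel h')
  · intro e
    refine ⟨⟨g⁻¹ * e.1, fun j => ?_⟩, Subtype.ext (mul_inv_cancel_left g e.1)⟩
    rw [Equiv.Perm.mul_apply, ← hg (g⁻¹ (e.1 j)), ← Equiv.Perm.mul_apply, mul_inv_cancel,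
      Equiv.Perm.one_apply, e.2]

/-- **(TR1)** the trace trick. -/
theorem tr1 [DecidableEq σ] {I : Type*} [Fintype I] (k' c k : σ → ℕ) (hk : k = k' + c)
    (mu' del mu : Fin m → ℕ) (hmu : mu = mu' + del) (u a : I → MvPolynomial (Fin m × σ) ℂ)
    (hu : ∀ i, u i ∈ KK m σ c del)
    (hz : ∀ e : Equiv.Perm σ, (∀ j, k (e j) = k j) → e ≠ 1 →
      ∑ i, a i * rename (fun p : Fin m × σ => (p.1, e p.2)) (u i) = 0)
    (hn : ∑ i, a i * u i ≠ 0) :
    Module.finrank ℂ (KK m σ k' mu') ≤
      Fintype.card {e : Equiv.Perm σ // ∀ j, k (e j) = k j} *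
        Module.finrank ℂ (PK m σ k mu) := by
  have hfin : FiniteDimensional ℂ (PK m σ k mu) :=
    Submodule.finiteDimensional_of_le (S₂ := HW m σ mu) fun f hf => hf.1
  refine core (fun e : {e : Equiv.Perm σ // ∀ j, k (e j) = k j} => rename (rc m e.1))
    ⟨1, fun j => rfl⟩ ?_ _ _ u a ?_ hn ?_
  · exact rename_id
  · intro e he
    exact hz e.1 e.2 fun h => he (Subtype.ext h)
  · intro F hF i
    refine trace_mem ?_
    subst hk hmu
    exact kk_mul hF (hu i)

end

end Vale.Agent.P181.TR.H88
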